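import Crest.Agent.Helper21.BoxFlow.Defs
import Crest.Agent.Helper68.Flow

/-!
# S0170, work package A6: global flows of smooth compactly supported fields, and uniqueness

Statements are exactly those of `Crest.Agent.Helper21.Spec.flow_exists` and
`Crest.Agent.Helper21.Spec.flow_unique_Icc`.
-/

set_option autoImplicit false
open scoped ContDiff NNReal Topology
open Set Metric Filter
open Crest.AnalysisR.BoxFlow Crest.Agent.Helper21

namespace Crest.Agent.Helper68

/-- Global flow of a bounded, uniformly Lipschitz field, started at an arbitrary time `s₀`. -/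
theorem exists_global_solution_from {E : Type*} [NormedAddCommGroup E] [NormedSpace ℝ E]
    [CompleteSpace E] (f : ℝ → E → E) (C K : ℝ≥0)
    (hcont : ∀ x, Continuous (fun t => f t x))
    (hC : ∀ t x, ‖f t x‖ ≤ C)
    (hK : ∀ t, LipschitzWith K (f t)) (s₀ : ℝ) :
    ∃ Ψ : ℝ → E → E, (∀ x, Ψ s₀ x = x) ∧
      ∀ t x, HasDerivAt (fun s => Ψ s x) (f t (Ψ t x)) t := by
  obtain ⟨Φ, h0, h1⟩ := exists_global_solution (fun t x => f (t + s₀) x) C K
    (fun x => (hcont x).comp (continuous_id.add continuous_const))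
    (fun t x => hC (t + s₀) x) (fun t => hK (t + s₀))
  refine ⟨fun t x => Φ (t - s₀) x, fun x => by simp [h0], fun t x => ?_⟩
  have h := (h1 (t - s₀) x).comp_sub_const t s₀
  simpa using h

/-- **WP-A6 (existence)**; statement of `Spec.flow_exists`. -/
theorem flow_exists (U : Field) (hU : ContDiff ℝ ∞ U) (hc : HasCompactSupport U) (s₀ : ℝ) :
    ∃ Ψ : ℝ → Sp → Sp, (∀ x, Ψ s₀ x = x) ∧
      ∀ t x, HasDerivAt (fun s => Ψ s x) (U (t, Ψ t x)) t := by
  have hU1 : ContDiff ℝ 1 U := hU.of_le (by exact_mod_cast le_top)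
  obtain ⟨C, K, hC, hK⟩ := bounded_lipschitz_of_smooth U hU1 hc
  exact exists_global_solution_from (fun t x => U (t, x)) C K
    (fun x => hU.continuous.comp (by fun_prop)) (fun t x => hC (t, x)) hK s₀

/-- Uniqueness on an interval for a uniformly Lipschitz field, initial time anywhere inside. -/
theorem solution_unique_Icc {E : Type*} [NormedAddCommGroup E] [NormedSpace ℝ E]
    (f : ℝ → E → E) (K : ℝ≥0) (hK : ∀ t, LipschitzWith K (f t))
    (γ₁ γ₂ : ℝ → E) (s₀ l r : ℝ) (hs : s₀ ∈ Icc l r)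
    (h₁ : ∀ t ∈ Icc l r, HasDerivAt γ₁ (f t (γ₁ t)) t)
    (h₂ : ∀ t ∈ Icc l r, HasDerivAt γ₂ (f t (γ₂ t)) t) (h0 : γ₁ s₀ = γ₂ s₀) :
    ∀ t ∈ Icc l r, γ₁ t = γ₂ t := by
  intro t ht
  rcases le_or_gt s₀ t with h | h
  · have hsub : Icc s₀ r ⊆ Icc l r := Icc_subset_Icc hs.1 le_rfl
    have key := ODE_solution_unique (v := f) (K := K) (f := γ₁) (g := γ₂) (a := s₀) (b := r) hK
      (fun s hs' => (h₁ s (hsub hs')).continuousAt.continuousWithinAt)
      (fun s hs' => (h₁ s (hsub (Ico_subset_Icc_self hs'))).hasDerivWithinAt)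
      (fun s hs' => (h₂ s (hsub hs')).continuousAt.continuousWithinAt)
      (fun s hs' => (h₂ s (hsub (Ico_subset_Icc_self hs'))).hasDerivWithinAt)
      h0
    exact key ⟨h, ht.2⟩
  · have hsub : Icc l s₀ ⊆ Icc l r := Icc_subset_Icc le_rfl hs.2
    have key := ODE_solution_unique_of_mem_Icc_left (v := f) (K := K) (f := γ₁) (g := γ₂)
      (a := l) (b := s₀) (s := fun _ => univ)
      (fun s _ => (hK s).lipschitzOnWith)
      (fun s hs' => (h₁ s (hsub hs')).continuousAt.continuousWithinAt)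
      (fun s hs' => (h₁ s (hsub (Ioc_subset_Icc_self hs'))).hasDerivWithinAt)
      (fun _ _ => mem_univ _)
      (fun s hs' => (h₂ s (hsub hs')).continuousAt.continuousWithinAt)
      (fun s hs' => (h₂ s (hsub (Ioc_subset_Icc_self hs'))).hasDerivWithinAt)
      (fun _ _ => mem_univ _)
      h0
    exact key ⟨ht.1, h.le⟩

/-- **WP-A6 (uniqueness)**; statement of `Spec.flow_unique_Icc`. -/
theorem flow_unique_Icc (U : Field) (hU : ContDiff ℝ ∞ U) (hc : HasCompactSupport U)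
    (γ₁ γ₂ : ℝ → Sp) (s₀ l r : ℝ) (hs : s₀ ∈ Set.Icc l r)
    (h₁ : ∀ t ∈ Set.Icc l r, HasDerivAt γ₁ (U (t, γ₁ t)) t)
    (h₂ : ∀ t ∈ Set.Icc l r, HasDerivAt γ₂ (U (t, γ₂ t)) t) (h0 : γ₁ s₀ = γ₂ s₀) :
    ∀ t ∈ Set.Icc l r, γ₁ t = γ₂ t := by
  have hU1 : ContDiff ℝ 1 U := hU.of_le (by exact_mod_cast le_top)
  obtain ⟨C, K, hC, hK⟩ := bounded_lipschitz_of_smooth U hU1 hc
  exact solution_unique_Icc (fun t x => U (t, x)) K hK γ₁ γ₂ s₀ l r hs h₁ h₂ h0

end Crest.Agent.Helper68
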