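import Crest.Agent.Helper21.BoxFlow.Defs

/-!
# S0170, WP-A5b: the scalar potential `theta` of a move field and its one-component fields

`moveField a α w lo hi m t₀ t₁ = ∂_t curl (theta · e_{a+2})`; see `A5bId.lean` for the identity
`moveField p = mixedDeriv [0, (a+1).succ] (thetaField a a α w …) p
             + mixedDeriv [0, a.succ] (thetaField (a+1) a (-α) (-w) …) p`.
-/

set_option autoImplicit false
open Crest.AnalysisR.BoxFlow Crest.Agent.Helper21

namespace Crest.Agent.Helper68

noncomputable section

/-- The scalar potential of a move: time profile × three plateaus × the quadratic `potF`. -/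
def theta (a : Fin 3) (α : ℚ) (w lo hi : Fin 3 → ℚ) (m t₀ t₁ : ℚ) (p : ℝ × Sp) : ℝ :=
  timeProfile t₀ t₁ p.1 * plat (lo a) (hi a) m (p.2 a)
    * plat (lo (a + 1)) (hi (a + 1)) m (p.2 (a + 1))
    * plat (lo (a + 2)) (hi (a + 2)) m (p.2 (a + 2)) * potF a α w p.2

/-- The field whose only non-zero component, the `e`-th, is `theta`. -/
def thetaField (e a : Fin 3) (α : ℚ) (w lo hi : Fin 3 → ℚ) (m t₀ t₁ : ℚ) : Field :=
  fun p => Pi.single e (theta a α w lo hi m t₀ t₁ p)

end

end Crest.Agent.Helper68
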