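import Crest.Agent.Helper21.BoxFlow.MixedDeriv
import Crest.Agent.Helper78.BoxFlow.E
import Crest.Agent.Helper68.BoxFlow.ThetaDefs

/-!
# S0170, WP-A5b (part "id"): the move field is `∂_t curl` of the potential field, and the
transfer of effectiveness from the potential fields to the move field.
-/

set_option autoImplicit false
open scoped ContDiff
open Crest.AnalysisR.BoxFlow Crest.Agent.Helper21

namespace Crest.Agent.Helper68

/-! ### Smoothness of the 1-D building blocks -/

theorem contDiff_stp : ContDiff ℝ ∞ stp := Real.smoothTransition.contDiff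

theorem contDiff_plat (lo hi m : ℚ) : ContDiff ℝ ∞ (plat lo hi m) := by
  unfold plat
  exact (contDiff_stp.comp (by fun_prop)).mul (contDiff_stp.comp (by fun_prop))

theorem contDiff_timeProfile (t₀ t₁ : ℚ) : ContDiff ℝ ∞ (timeProfile t₀ t₁) := by
  unfold timeProfile
  exact contDiff_stp.comp (by fun_prop)

theorem contDiff_deriv_of_contDiff {g : ℝ → ℝ} (hg : ContDiff ℝ ∞ g) : ContDiff ℝ ∞ (deriv g) := by
  exact (contDiff_infty_iff_deriv.1 hg).2

/-! ### A generic potential `T(t) A(x_a) B(x_b) C(x_c) · x_b (α + w_b x_b / 2 + w_c x_c)` -/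

section generic

variable (T A B C : ℝ → ℝ) (a b c : Fin 3) (α wb wc : ℝ)

/-- The generic potential. -/
noncomputable def thetaGen (q : ℝ × Sp) : ℝ :=
  T q.1 * A (q.2 a) * B (q.2 b) * C (q.2 c) * (q.2 b * (α + wb * q.2 b / 2 + wc * q.2 c))

variable {T A B C}

theorem contDiff_thetaGen (hT : ContDiff ℝ ∞ T) (hA : ContDiff ℝ ∞ A) (hB : ContDiff ℝ ∞ B)
    (hC : ContDiff ℝ ∞ C) : ContDiff ℝ ∞ (thetaGen T A B C a b c α wb wc) := by
  unfold thetaGen
  have h1 : ContDiff ℝ ∞ (fun q : ℝ × Sp => q.1) := contDiff_fst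
  have h2 : ∀ i : Fin 3, ContDiff ℝ ∞ (fun q : ℝ × Sp => q.2 i) := fun i =>
    (contDiff_apply ℝ ℝ i).comp contDiff_snd
  exact ((((hT.comp h1).mul (hA.comp (h2 a))).mul (hB.comp (h2 b))).mul (hC.comp (h2 c))).mul
    ((h2 b).mul (((contDiff_const.add (((contDiff_const.mul (h2 b))).div_const 2))).add
      (contDiff_const.mul (h2 c))))

/-- Derivative of a function of space-time along a line. -/
theorem fderiv_eq_deriv_line {G : ℝ × Sp → ℝ} {q : ℝ × Sp} (hG : DifferentiableAt ℝ G q)
    (v : ℝ × Sp) : fderiv ℝ G q v = deriv (fun s : ℝ => G (q + s • v)) 0 :=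
  (hG.lineDeriv_eq_fderiv (v := v)).symm

/-- The `x_b`-derivative of the generic potential. -/
theorem fderiv_thetaGen_b (hT : ContDiff ℝ ∞ T) (hA : ContDiff ℝ ∞ A) (hB : ContDiff ℝ ∞ B)
    (hC : ContDiff ℝ ∞ C) (hab : a ≠ b) (hcb : c ≠ b) (q : ℝ × Sp) :
    fderiv ℝ (thetaGen T A B C a b c α wb wc) q (0, Pi.single b 1) =
      T q.1 * (A (q.2 a) * C (q.2 c) * (deriv B (q.2 b) * (q.2 b * (α + wb * q.2 b / 2 + wc * q.2 c))
        + B (q.2 b) * (α + wb * q.2 b + wc * q.2 c))) := by
  have hdiff : DifferentiableAt ℝ (thetaGen T A B C a b c α wb wc) q :=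
    (contDiff_thetaGen a b c α wb wc hT hA hB hC).differentiable (by simp) q
  rw [fderiv_eq_deriv_line hdiff]
  have hfun : (fun s : ℝ => thetaGen T A B C a b c α wb wc (q + s • ((0 : ℝ), (Pi.single b 1 : Sp))))
      = fun s : ℝ => T q.1 * A (q.2 a) * B (q.2 b + s) * C (q.2 c)
          * ((q.2 b + s) * (α + wb * (q.2 b + s) / 2 + wc * q.2 c)) := by
    funext s
    simp [thetaGen, hab, hcb]
  rw [hfun]
  have hB1 : HasDerivAt (fun s : ℝ => B (q.2 b + s)) (deriv B (q.2 b)) 0 := by
    have h := (hB.differentiable (by simp) (q.2 b + 0)).hasDerivAt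
    have h' := h.comp_const_add (q.2 b) 0
    simpa using h'
  have hlin : HasDerivAt (fun s : ℝ => q.2 b + s) 1 0 := (hasDerivAt_id (0 : ℝ)).const_add _
  have hP : HasDerivAt (fun s : ℝ => (q.2 b + s) * (α + wb * (q.2 b + s) / 2 + wc * q.2 c))
      (1 * (α + wb * (q.2 b + 0) / 2 + wc * q.2 c) + (q.2 b + 0) * (wb * 1 / 2)) 0 :=
    hlin.mul ((((hlin.const_mul wb).div_const 2).const_add α).add_const (wc * q.2 c))
  have hfull := (((hB1.const_mul (T q.1 * A (q.2 a))).mul_const (C (q.2 c))).mul hP)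
  have hfull' : HasDerivAt (fun s : ℝ => T q.1 * A (q.2 a) * B (q.2 b + s) * C (q.2 c)
      * ((q.2 b + s) * (α + wb * (q.2 b + s) / 2 + wc * q.2 c))) _ 0 := hfull
  rw [hfull'.deriv]
  simp only [add_zero]
  ring

/-- The `x_a`-derivative of the generic potential. -/
theorem fderiv_thetaGen_a (hT : ContDiff ℝ ∞ T) (hA : ContDiff ℝ ∞ A) (hB : ContDiff ℝ ∞ B)
    (hC : ContDiff ℝ ∞ C) (hab : a ≠ b) (hca : c ≠ a) (q : ℝ × Sp) :
    fderiv ℝ (thetaGen T A B C a b c α wb wc) q (0, Pi.single a 1) =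
      T q.1 * (deriv A (q.2 a) * B (q.2 b) * C (q.2 c)
        * (q.2 b * (α + wb * q.2 b / 2 + wc * q.2 c))) := by
  have hdiff : DifferentiableAt ℝ (thetaGen T A B C a b c α wb wc) q :=
    (contDiff_thetaGen a b c α wb wc hT hA hB hC).differentiable (by simp) q
  rw [fderiv_eq_deriv_line hdiff]
  have hfun : (fun s : ℝ => thetaGen T A B C a b c α wb wc (q + s • ((0 : ℝ), (Pi.single a 1 : Sp))))
      = fun s : ℝ => T q.1 * A (q.2 a + s) * B (q.2 b) * C (q.2 c)
          * (q.2 b * (α + wb * q.2 b / 2 + wc * q.2 c)) := by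
    funext s
    simp [thetaGen, hab.symm, hca]
  rw [hfun]
  have hA1 : HasDerivAt (fun s : ℝ => A (q.2 a + s)) (deriv A (q.2 a)) 0 := by
    have h := (hA.differentiable (by simp) (q.2 a + 0)).hasDerivAt
    have h' := h.comp_const_add (q.2 a) 0
    simpa using h'
  have hfull := ((((hA1.const_mul (T q.1)).mul_const (B (q.2 b))).mul_const (C (q.2 c))).mul_const
    (q.2 b * (α + wb * q.2 b / 2 + wc * q.2 c)))
  have hfull' : HasDerivAt (fun s : ℝ => T q.1 * A (q.2 a + s) * B (q.2 b) * C (q.2 c)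
      * (q.2 b * (α + wb * q.2 b / 2 + wc * q.2 c))) _ 0 := hfull
  rw [hfull'.deriv]
  ring

/-- The time derivative of a product `T(t) R(x)`. -/
theorem fderiv_time_mul (hT : ContDiff ℝ ∞ T) {R : Sp → ℝ} (hR : ContDiff ℝ ∞ R) (q : ℝ × Sp) :
    fderiv ℝ (fun q : ℝ × Sp => T q.1 * R q.2) q (1, 0) = deriv T q.1 * R q.2 := by
  have hcd : ContDiff ℝ ∞ (fun q : ℝ × Sp => T q.1 * R q.2) :=
    (hT.comp contDiff_fst).mul (hR.comp contDiff_snd)
  have hdiff : DifferentiableAt ℝ (fun q : ℝ × Sp => T q.1 * R q.2) q :=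
    hcd.differentiable (by simp) q
  rw [fderiv_eq_deriv_line hdiff]
  have hfun : (fun s : ℝ => (fun q : ℝ × Sp => T q.1 * R q.2) (q + s • ((1 : ℝ), (0 : Sp))))
      = fun s : ℝ => T (q.1 + s) * R q.2 := by
    funext s
    simp
  rw [hfun]
  have hT1 : HasDerivAt (fun s : ℝ => T (q.1 + s)) (deriv T q.1) 0 := by
    have h := (hT.differentiable (by simp) (q.1 + 0)).hasDerivAt
    have h' := h.comp_const_add q.1 0
    simpa using h'
  have hfull' : HasDerivAt (fun s : ℝ => T (q.1 + s) * R q.2) _ 0 := hT1.mul_const (R q.2)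
  rw [hfull'.deriv]

theorem direction_zero : direction 0 = ((1 : ℝ), (0 : Sp)) := by
  simp [direction]

theorem direction_succ (j : Fin 3) : direction j.succ = ((0 : ℝ), (Pi.single j 1 : Sp)) := by
  simp [direction, Fin.succ_ne_zero]

/-- `∂_t ∂_{x_b}` of the generic potential. -/
theorem mixedDerivS_thetaGen_b (hT : ContDiff ℝ ∞ T) (hA : ContDiff ℝ ∞ A) (hB : ContDiff ℝ ∞ B)
    (hC : ContDiff ℝ ∞ C) (hab : a ≠ b) (hcb : c ≠ b) (p : ℝ × Sp) :
    mixedDerivS [0, b.succ] (thetaGen T A B C a b c α wb wc) p =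
      deriv T p.1 * (A (p.2 a) * C (p.2 c) * (deriv B (p.2 b) * (p.2 b * (α + wb * p.2 b / 2 + wc * p.2 c))
        + B (p.2 b) * (α + wb * p.2 b + wc * p.2 c))) := by
  have h2 : ∀ i : Fin 3, ContDiff ℝ ∞ (fun x : Sp => x i) := fun i => contDiff_apply ℝ ℝ i
  have hB' := contDiff_deriv_of_contDiff hB
  let R : Sp → ℝ := fun x => A (x a) * C (x c) *
    (deriv B (x b) * (x b * (α + wb * x b / 2 + wc * x c)) + B (x b) * (α + wb * x b + wc * x c))
  have hR : ContDiff ℝ ∞ R :=
    ((hA.comp (h2 a)).mul (hC.comp (h2 c))).mul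
      (((hB'.comp (h2 b)).mul ((h2 b).mul (((contDiff_const.add
        (((contDiff_const.mul (h2 b))).div_const 2))).add (contDiff_const.mul (h2 c))))).add
        ((hB.comp (h2 b)).mul ((contDiff_const.add (contDiff_const.mul (h2 b))).add
          (contDiff_const.mul (h2 c)))))
  have h1 : mixedDerivS [b.succ] (thetaGen T A B C a b c α wb wc)
      = fun q : ℝ × Sp => T q.1 * R q.2 := by
    funext q
    show fderiv ℝ (thetaGen T A B C a b c α wb wc) q (direction b.succ) = _
    rw [direction_succ, fderiv_thetaGen_b a b c α wb wc hT hA hB hC hab hcb]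
  show fderiv ℝ (mixedDerivS [b.succ] (thetaGen T A B C a b c α wb wc)) p (direction 0) = _
  rw [h1, direction_zero]
  exact fderiv_time_mul hT hR p

/-- `∂_t ∂_{x_a}` of the generic potential. -/
theorem mixedDerivS_thetaGen_a (hT : ContDiff ℝ ∞ T) (hA : ContDiff ℝ ∞ A) (hB : ContDiff ℝ ∞ B)
    (hC : ContDiff ℝ ∞ C) (hab : a ≠ b) (hca : c ≠ a) (p : ℝ × Sp) :
    mixedDerivS [0, a.succ] (thetaGen T A B C a b c α wb wc) p =
      deriv T p.1 * (deriv A (p.2 a) * B (p.2 b) * C (p.2 c)
        * (p.2 b * (α + wb * p.2 b / 2 + wc * p.2 c))) := by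
  have h2 : ∀ i : Fin 3, ContDiff ℝ ∞ (fun x : Sp => x i) := fun i => contDiff_apply ℝ ℝ i
  have hA' := contDiff_deriv_of_contDiff hA
  let R : Sp → ℝ := fun x => deriv A (x a) * B (x b) * C (x c)
    * (x b * (α + wb * x b / 2 + wc * x c))
  have hR : ContDiff ℝ ∞ R :=
    (((hA'.comp (h2 a)).mul (hB.comp (h2 b))).mul (hC.comp (h2 c))).mul
      ((h2 b).mul (((contDiff_const.add (((contDiff_const.mul (h2 b))).div_const 2))).add
        (contDiff_const.mul (h2 c))))
  have h1 : mixedDerivS [a.succ] (thetaGen T A B C a b c α wb wc)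
      = fun q : ℝ × Sp => T q.1 * R q.2 := by
    funext q
    show fderiv ℝ (thetaGen T A B C a b c α wb wc) q (direction a.succ) = _
    rw [direction_succ, fderiv_thetaGen_a a b c α wb wc hT hA hB hC hab hca]
  show fderiv ℝ (mixedDerivS [a.succ] (thetaGen T A B C a b c α wb wc)) p (direction 0) = _
  rw [h1, direction_zero]
  exact fderiv_time_mul hT hR p

end generic

/-! ### The potential of a move -/

section move

variable (a : Fin 3) (α : ℚ) (w lo hi : Fin 3 → ℚ) (m t₀ t₁ : ℚ)

theorem fin3_ne_add_one (a : Fin 3) : a ≠ a + 1 := by revert a; decide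

theorem fin3_add_two_ne_add_one (a : Fin 3) : a + 2 ≠ a + 1 := by revert a; decide

theorem fin3_add_two_ne (a : Fin 3) : a + 2 ≠ a := by revert a; decide

theorem theta_eq_thetaGen :
    theta a α w lo hi m t₀ t₁ = thetaGen (timeProfile t₀ t₁) (plat (lo a) (hi a) m)
      (plat (lo (a + 1)) (hi (a + 1)) m) (plat (lo (a + 2)) (hi (a + 2)) m) a (a + 1) (a + 2)
      (α : ℝ) (w (a + 1) : ℝ) (w (a + 2) : ℝ) := by
  funext p
  rfl

/-- The scalar potential is smooth. -/
theorem contDiff_theta : ContDiff ℝ ∞ (theta a α w lo hi m t₀ t₁) := by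
  rw [theta_eq_thetaGen]
  exact contDiff_thetaGen _ _ _ _ _ _ (contDiff_timeProfile t₀ t₁) (contDiff_plat _ _ _)
    (contDiff_plat _ _ _) (contDiff_plat _ _ _)

/-- The potential fields are smooth. -/
theorem contDiff_thetaField (e : Fin 3) : ContDiff ℝ ∞ (thetaField e a α w lo hi m t₀ t₁) := by
  unfold thetaField
  rw [contDiff_pi]
  intro i
  by_cases hi : i = e
  · subst hi
    simpa using contDiff_theta a α w lo hi m t₀ t₁
  · simpa [Pi.single_eq_of_ne hi] using (contDiff_const : ContDiff ℝ ∞ fun _ : ℝ × Sp => (0 : ℝ))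

/-- **The curl identity**: the move field is `∂_t curl (theta e_{a+2})`, written with two
one-component potential fields (the second one with negated data, to avoid a minus sign). -/
theorem moveField_eq_curl (p : ℝ × Sp) :
    moveField a α w lo hi m t₀ t₁ p =
      mixedDeriv [0, (a + 1).succ] (thetaField a a α w lo hi m t₀ t₁) p
        + mixedDeriv [0, a.succ] (thetaField (a + 1) a (-α) (-w) lo hi m t₀ t₁) p := by
  funext j
  rw [Pi.add_apply]
  have e1 := mixedDeriv_single (contDiff_theta a α w lo hi m t₀ t₁) a [0, (a + 1).succ] p j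
  have e2 := mixedDeriv_single (contDiff_theta a (-α) (-w) lo hi m t₀ t₁) (a + 1) [0, a.succ] p j
  have e1' : mixedDeriv [0, (a + 1).succ] (thetaField a a α w lo hi m t₀ t₁) p j
      = if j = a then mixedDerivS [0, (a + 1).succ] (theta a α w lo hi m t₀ t₁) p else 0 := e1
  have e2' : mixedDeriv [0, a.succ] (thetaField (a + 1) a (-α) (-w) lo hi m t₀ t₁) p j
      = if j = a + 1 then mixedDerivS [0, a.succ] (theta a (-α) (-w) lo hi m t₀ t₁) p else 0 := e2
  rw [e1', e2', theta_eq_thetaGen, theta_eq_thetaGen,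
    mixedDerivS_thetaGen_b a (a + 1) (a + 2) _ _ _ (contDiff_timeProfile t₀ t₁)
      (contDiff_plat _ _ _) (contDiff_plat _ _ _) (contDiff_plat _ _ _) (fin3_ne_add_one a)
      (fin3_add_two_ne_add_one a),
    mixedDerivS_thetaGen_a a (a + 1) (a + 2) _ _ _ (contDiff_timeProfile t₀ t₁)
      (contDiff_plat _ _ _) (contDiff_plat _ _ _) (contDiff_plat _ _ _) (fin3_ne_add_one a)
      (fin3_add_two_ne a)]
  by_cases h1 : j = a
  · subst h1
    have h2 : j ≠ j + 1 := fin3_ne_add_one j
    simp only [moveField, potF, if_true, if_neg h2, add_zero]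
  · by_cases h2 : j = a + 1
    · subst h2
      simp only [moveField, potF, if_neg h1, if_true, zero_add, Pi.neg_apply, Rat.cast_neg]
      ring
    · simp only [moveField, if_neg h1, if_neg h2, add_zero]

/-- By-product: the move field is smooth. -/
theorem moveField_contDiff' : ContDiff ℝ ∞ (moveField a α w lo hi m t₀ t₁) := by
  have h : moveField a α w lo hi m t₀ t₁ = fun p =>
      mixedDeriv [0, (a + 1).succ] (thetaField a a α w lo hi m t₀ t₁) p
        + mixedDeriv [0, a.succ] (thetaField (a + 1) a (-α) (-w) lo hi m t₀ t₁) p := by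
    funext p
    exact moveField_eq_curl a α w lo hi m t₀ t₁ p
  rw [h]
  exact (mixedDeriv_contDiff (contDiff_thetaField a α w lo hi m t₀ t₁ a) _).add
    (mixedDeriv_contDiff (contDiff_thetaField a (-α) (-w) lo hi m t₀ t₁ (a + 1)) _)

end move

/-! ### Transfer of effectiveness -/

/-- **Shift lemma**: mixed derivatives of an effective field are effective. -/
theorem effective_mixedDeriv (F : Field) (eF : Effective F) (ds₀ : List (Fin 4)) :
    Effective (mixedDeriv ds₀ F) := by
  obtain ⟨E, bound, cE, cb, h1, h2⟩ := eF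
  refine ⟨fun x => E (x.1 ++ ds₀, x.2), fun ds => bound (ds ++ ds₀), ?_, ?_, ?_, ?_⟩
  · exact cE.comp (Computable.pair
      (Computable.list_append.comp Computable.fst (Computable.const ds₀)) Computable.snd)
  · exact cb.comp (Computable.list_append.comp Computable.id (Computable.const ds₀))
  · intro ds t q n j
    rw [← mixedDeriv_append]
    exact h1 (ds ++ ds₀) t q n j
  · intro ds p j
    rw [← mixedDeriv_append]
    exact h2 (ds ++ ds₀) p j

/-- **A5b, reduction**: the move field is effective as soon as the potential fields are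
(and rational addition is computable, WP-A4). -/
theorem moveField_effective_of (hadd : Computable₂ (fun a b : ℚ => a + b))
    (a : Fin 3) (α : ℚ) (w lo hi : Fin 3 → ℚ) (m t₀ t₁ : ℚ)
    (hΘ : ∀ (e : Fin 3) (α' : ℚ) (w' : Fin 3 → ℚ),
      Effective (thetaField e a α' w' lo hi m t₀ t₁)) :
    Effective (moveField a α w lo hi m t₀ t₁) := by
  have h : moveField a α w lo hi m t₀ t₁ = fun p =>
      mixedDeriv [0, (a + 1).succ] (thetaField a a α w lo hi m t₀ t₁) p
        + mixedDeriv [0, a.succ] (thetaField (a + 1) a (-α) (-w) lo hi m t₀ t₁) p := by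
    funext p
    exact moveField_eq_curl a α w lo hi m t₀ t₁ p
  rw [h]
  exact Crest.Agent.Helper78.effective_add_of hadd _ _
    (mixedDeriv_contDiff (contDiff_thetaField a α w lo hi m t₀ t₁ a) _)
    (mixedDeriv_contDiff (contDiff_thetaField a (-α) (-w) lo hi m t₀ t₁ (a + 1)) _)
    (effective_mixedDeriv _ (hΘ a α w) _) (effective_mixedDeriv _ (hΘ (a + 1) (-α) (-w)) _)

end Crest.Agent.Helper68
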